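import Mathlib
import Vale.Agent.P095.Statement
import Vale.Agent.P095.Main

/-!
Actions of locally finite groups: the fixed points of the central sequence algebra have the same
unital maps from dimension drop algebras and their limits as the central sequence algebra.
-/

open Filter TopologicalSpace Vale.Agent.P101 Vale.Agent.P095

open scoped Matrix.Norms.L2Operator

universe u v w

namespace Vale.Agent.Results.P095.LocallyFinite

set_option synthInstance.maxHeartbeats 200000
set_option maxHeartbeats 1000000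

/-- Fixed elements are those fixed by the induced automorphisms. -/
theorem isFixedSeq_iff {A : Type u} [CStarAlgebra A] [Nontrivial A] {G : Type w} [Group G]
    (α : G →* (A ≃⋆ₐ[ℂ] A)) (ω : Ultrafilter ℕ) (x : CentralSeq A ω) :
    IsFixedSeq ω α x ↔ ∀ g, centralMap ω (α g) x = x := by
  refine ⟨fun h g => Subtype.ext ?_, fun h g a ha => ?_⟩
  · obtain ⟨a, ha⟩ := Ideal.Quotient.mk_surjective (x : Ultrapower A ω)
    rw [centralMap_coe, ← ha, ultraMap_qmk]
    exact (qmk_eq_iff ω).2 (h g a ha)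
  · have h1 := congrArg Subtype.val (h g)
    rw [centralMap_coe] at h1
    change qmk ω a = (x : Ultrapower A ω) at ha
    rw [← ha, ultraMap_qmk] at h1
    exact (qmk_eq_iff ω).1 h1

/-- For a countable locally finite group acting on a nonzero separable unital C*-algebra, `F_ω(A)`
has no characters iff all prime dimension drop algebras map unitally into its fixed points, and a
prime dimension drop algebra or a limit of them maps unitally into the fixed points iff it maps
unitally into `F_ω(A)`. -/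
theorem result {A : Type u} [CStarAlgebra A] [Nontrivial A] [SeparableSpace A]
    {G : Type w} [Group G] [Countable G] (hG : IsLocallyFinite G)
    (α : G →* (A ≃⋆ₐ[ℂ] A)) (ω : Ultrafilter ℕ) (hω : (ω : Filter ℕ) ≤ cofinite) :
    (NoCharacter A ω ↔ ∀ p q : ℕ, 2 ≤ p → 2 ≤ q → Nat.Coprime p q → DimDropMapsFixed ω α p q) ∧
    (∀ p q : ℕ, 2 ≤ p → 2 ≤ q → Nat.Coprime p q →
      (DimDropMaps A ω p q ↔ DimDropMapsFixed ω α p q)) ∧
    ∀ (B : Type v) [CStarAlgebra B], IsDimDropLimit B →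
      (MapsUnitally A ω B ↔ MapsUnitallyFixed ω α B) := by
  have key : IsEmpty (CentralSeq A ω →⋆ₐ[ℂ] ℂ) → ∀ p q : ℕ, 2 ≤ p → 2 ≤ q → Nat.Coprime p q →
      ∃ Ψ : dimDrop p q →⋆ₐ[ℂ] CentralSeq A ω, (∀ g f, centralMap ω (α g) (Ψ f) = Ψ f) ∧
        ∀ f, ‖Ψ f‖ ≤ ‖(f : C(unitInterval, Matrix (Fin p × Fin q) (Fin p × Fin q) ℂ))‖ :=
    fun h p q hp hq hpq => exists_dimDrop_fixed α hω hG h hp hq hpq
  refine ⟨⟨fun h p q hp hq hpq => ?_, fun h => ?_⟩,
    fun p q hp hq hpq => ⟨fun h => ?_, fun h => ⟨h.choose⟩⟩,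
    fun B _ hB => ⟨fun h => ?_, fun h => ⟨h.choose⟩⟩⟩
  · obtain ⟨Ψ, hΨ, -⟩ := key h p q hp hq hpq
    exact ⟨Ψ, fun f => (isFixedSeq_iff α ω _).2 fun g => hΨ g f⟩
  · obtain ⟨θ, -⟩ := h 2 3 le_rfl (by norm_num) (by norm_num)
    exact isEmpty_char_of_hom le_rfl (by norm_num) θ
  · obtain ⟨φ⟩ := h
    obtain ⟨Ψ, hΨ, -⟩ := key (isEmpty_char_of_hom hp hq φ) p q hp hq hpq
    exact ⟨Ψ, fun f => (isFixedSeq_iff α ω _).2 fun g => hΨ g f⟩
  · obtain ⟨φ⟩ := h
    have hno : IsEmpty (CentralSeq A ω →⋆ₐ[ℂ] ℂ) := by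
      obtain ⟨S, hS, -⟩ := hB
      obtain ⟨p, q, hp, hq, -, e, -, -⟩ := (hS 0).1
      exact isEmpty_char_of_hom hp hq (φ.comp e)
    set E := fixedAlg (inducedAct ω α)
    have hc : IsClosed (E : Set (CentralSeq A ω)) := isClosed_fixedAlg _
    let := subCStar E hc
    obtain ⟨hBs, S, hS, hd, ψ, hψ⟩ := exists_local (F := E) hB.isPrimeDimDropLimit
      fun p q hp hq hpq => by
        obtain ⟨Ψ, hΨ, hn⟩ := key hno p q hp hq hpq
        exact ⟨Ψ.codRestrict E fun f g => hΨ g f, hn⟩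
    obtain ⟨θ, hθ⟩ := exists_fixed_hom_of_local α hω B S hS hd (fun n => E.subtype.comp (ψ n)) hψ
      fun g => Eventually.of_forall fun n x => (ψ n x).2 g
    exact ⟨θ, fun b => (isFixedSeq_iff α ω _).2 fun g => hθ g b⟩

end Vale.Agent.Results.P095.LocallyFinite
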