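import Vale.Agent.P101.Stage2
import Vale.Agent.P095.Amenable.Central
import Vale.Agent.P095.Amenable.Groups
import Vale.Agent.P095.Amenable.Saturated
import Vale.Agent.P095.Amenable.Step
import Vale.Agent.P095.Amenable.Sequences

/-!
Actions of subexponentially amenable groups on unital separable C*-algebras whose central sequence
algebra has no characters admit unital maps of the prime dimension drop algebras into the fixed tracial central
sequence algebra, with an arbitrary trace simplex.
-/

open Filter TopologicalSpace Vale.Agent.P101 Vale.Agent.P095.Amenable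

open scoped Matrix.Norms.L2Operator

namespace Vale.Agent.Results.P095.TracialAbsorption

set_option synthInstance.maxHeartbeats 200000
set_option maxHeartbeats 1000000

/-- For an action of a subexponentially amenable group, all prime dimension drop algebras map
unitally into the fixed central sequences modulo sequences null in all traces. -/
theorem result {A : Type} [CStarAlgebra A] [Nontrivial A] [SeparableSpace A] (ω : Ultrafilter ℕ)
    (hω : (ω : Filter ℕ) ≤ cofinite) {G : Type} [Group G] [Countable G] (hG : SubexpAmenable G)
    (β : G →* (A ≃⋆ₐ[ℂ] A)) (hchar : NoCharacter A ω) (_htrace : ∃ τ : A →ₗ[ℂ] ℂ, IsTrace τ)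
    (p q : ℕ) (hp : 2 ≤ p) (hq : 2 ≤ q) (hpq : Nat.Coprime p q) :
    TracialMaps ω (fun g a => β g a) p q := by
  have h1 : ∀ x, β 1 x = x := fun x => by rw [map_one]; rfl
  have hmul : ∀ g h x, β (g * h) x = β g (β h x) := fun g h x => by rw [map_mul]; rfl
  obtain ⟨α, hα⟩ := induced_exists (A := A) (ω := ω) hω (β := fun g => β g) h1 hmul
  have hs := sys_central hω h1 hmul hα
  have hsat := saturated_central hω h1 hmul hα
  let : PartialOrder (CentralSeq A ω) := CStarAlgebra.spectralOrder (CentralSeq A ω)
  have : StarOrderedRing (CentralSeq A ω) := CStarAlgebra.spectralOrderedRing (CentralSeq A ω)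
  have habs : Absorbs (limTraces A ω) α (⊤ : Subgroup G) :=
    absorbs_of_subexpAmenable hs hsat (growth_step hs hsat (full_central hω h1 hmul hchar)) hG
  exact tracialMaps_of_absorbs hω hs hα habs hchar hp hq hpq

end Vale.Agent.Results.P095.TracialAbsorption
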